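import Vale.Agent.P218CJ.Lim
import Vale.Agent.P218CO.JH

/-! # The derivative of the family of solutions on the ends -/

open Set Filter Metric Topology
open scoped ContDiff

noncomputable section

set_option linter.unusedSectionVars false
set_option linter.unusedVariables false

namespace Vale.Agent.P218CO

open Vale.Agent.P218VA Vale.Agent.P218MP Vale.Agent.P272.K.LIN Vale.Agent.P218CJ
  Vale.Agent.P281.MF

/-! ### `fnC` is complex linear -/

section fnC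
variable {σ M : Type} [TopologicalSpace M] [ChartedSpace E2 M] {𝒞 : Cov E2 M}

lemma fnC_neg (u : VC 𝒞) (x : M) : fnC (-u) x = -fnC u x := by
  rw [← neg_one_smul ℂ u, fnC_smul]; ring

lemma fnC_sub (u v : VC 𝒞) (x : M) : fnC (u - v) x = fnC u x - fnC v x := by
  rw [sub_eq_add_neg, fnC_add, fnC_neg, sub_eq_add_neg]

lemma contDiffAt_fnC_Y (𝓔 : Ends σ M) (v : VC 𝒞) (j : σ) {p : ℝ × ℝ} (hp : 𝓔.w0 < p.1) :
    ContDiffAt ℝ 2 (fun q => fnC v (𝓔.Y j q)) p := Ends.contDiffAt_Y hp (ckAt_fnC v _)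

lemma pj_fnC_add (𝓔 : Ends σ M) (u v : VC 𝒞) (j : σ) {p : ℝ × ℝ} (hp : 𝓔.w0 < p.1) :
    pj (fun q => fnC (u + v) (𝓔.Y j q)) p =
      pj (fun q => fnC u (𝓔.Y j q)) p + pj (fun q => fnC v (𝓔.Y j q)) p := by
  simp only [fnC_add]
  exact cj_add (contDiffAt_fnC_Y 𝓔 u j hp) (contDiffAt_fnC_Y 𝓔 v j hp)

lemma pj_fnC_smul (𝓔 : Ends σ M) (t : ℂ) (v : VC 𝒞) (j : σ) {p : ℝ × ℝ} (hp : 𝓔.w0 < p.1) :
    pj (fun q => fnC (t • v) (𝓔.Y j q)) p = t • pj (fun q => fnC v (𝓔.Y j q)) p := by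
  simp only [fnC_smul]
  exact cj_csmul t (contDiffAt_fnC_Y 𝓔 v j hp)

variable {β : Type} [Fintype β] (c : CoreOp σ β M)

lemma CoreOp.jv_add (u v : VC 𝒞) (j : σ) {p : ℝ × ℝ} (hp : c.𝓔.w0 < p.1) :
    c.jv (u + v) j p = c.jv u j p + c.jv v j p := congrArg Prod.fst (pj_fnC_add c.𝓔 u v j hp)

lemma CoreOp.jv_smul (t : ℂ) (v : VC 𝒞) (j : σ) {p : ℝ × ℝ} (hp : c.𝓔.w0 < p.1) :
    c.jv (t • v) j p = t • c.jv v j p := congrArg Prod.fst (pj_fnC_smul c.𝓔 t v j hp)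

lemma CoreOp.jv_zero (j : σ) (p : ℝ × ℝ) : c.jv (0 : VC 𝒞) j p = 0 := by
  unfold CoreOp.jv
  simp only [fnC_zero]
  exact congrArg Prod.fst cj_zero

end fnC

/-! ### the linearisation of the operators on the ends -/

namespace EndOp

variable {o : EndOp} {s s' : ℝ} {p : ℝ × ℝ}

lemma Good.diffa (h : o.Good s') (hp : s' < p.1) : DifferentiableAt ℂ (o.a p) 0 :=
  (h.mixa p hp).hol.self_of_nhds

lemma Good.diffb (h : o.Good s') (hp : s' < p.1) : DifferentiableAt ℂ (o.b p) 0 :=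
  (h.mixb p hp).hol.self_of_nhds

lemma diff_u1j {V : Type*} [NormedAddCommGroup V] [NormedSpace ℂ V] {f g : V → T3 ℂ} {x : V}
    (hf : DifferentiableAt ℂ f x) (hg : DifferentiableAt ℂ g x) (s w : ℝ) :
    DifferentiableAt ℂ (fun z => u1j s w (f z) (g z)) x := by
  unfold u1j jm1
  fun_prop

lemma diff_jcm {V : Type*} [NormedAddCommGroup V] [NormedSpace ℂ V] {f : V → T3 ℂ} {x : V}
    (hf : DifferentiableAt ℂ f x) (c : T3 ℂ) : DifferentiableAt ℂ (fun z => jcm c (f z)) x := by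
  unfold jcm
  fun_prop

lemma diff_pair {V : Type*} [NormedAddCommGroup V] [NormedSpace ℂ V] {f g : V → T3 ℂ} {x : V}
    (hf : DifferentiableAt ℂ f x) (hg : DifferentiableAt ℂ g x) :
    DifferentiableAt ℂ (fun z => pair (f z) (g z)) x := by
  unfold pair
  fun_prop

lemma Good.diffE (h : o.Good s') (hp : s' < p.1) : DifferentiableAt ℂ (o.E p) 0 := by
  have ha : DifferentiableAt ℂ (fun z : J2 ℂ => o.a p z.1) 0 :=
    DifferentiableAt.comp (g := o.a p) 0 (h.diffa hp) differentiableAt_fst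
  have hb : DifferentiableAt ℂ (fun z : J2 ℂ => o.b p z.1) 0 :=
    DifferentiableAt.comp (g := o.b p) 0 (h.diffb hp) differentiableAt_fst
  exact (diff_pair ha (by fun_prop)).add hb

lemma Good.diffEND (h : o.Good s') (hp : s' < p.1) (s : ℝ) :
    DifferentiableAt ℂ (fun z : T3 ℂ × J2 ℂ => o.END s p z.1 z.2) 0 := by
  have hu : DifferentiableAt ℂ (fun z : T3 ℂ × J2 ℂ => u1j s p.1 z.1 z.2.1) 0 :=
    diff_u1j (by fun_prop) (by fun_prop) s p.1
  have ha : DifferentiableAt ℂ (fun z : T3 ℂ × J2 ℂ => o.a p (u1j s p.1 z.1 z.2.1)) 0 :=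
    DifferentiableAt.comp (g := o.a p) 0 (by simpa using h.diffa hp) hu
  have hb : DifferentiableAt ℂ (fun z : T3 ℂ × J2 ℂ => o.b p (u1j s p.1 z.1 z.2.1)) 0 :=
    DifferentiableAt.comp (g := o.b p) 0 (by simpa using h.diffb hp) hu
  have hb' : DifferentiableAt ℂ (fun z : T3 ℂ × J2 ℂ => o.b p z.2.1) 0 :=
    DifferentiableAt.comp (g := o.b p) 0 (h.diffb hp) (by fun_prop)
  have hc : DifferentiableAt ℂ (fun z : T3 ℂ × J2 ℂ => jcm (c2 s p.1) z.1) 0 :=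
    diff_jcm differentiableAt_fst _
  exact ((diff_pair ha (DifferentiableAt.add (by fun_prop) hc)).add hb').add
    ((hb.sub hb').const_mul _)

lemma Good.diffCOL (h : o.Good s') (hp : s' < p.1) (s : ℝ) :
    DifferentiableAt ℂ (fun z : J2 ℂ × T3 ℂ => o.COL s p z.1 z.2) 0 := by
  have hu : DifferentiableAt ℂ (fun z : J2 ℂ × T3 ℂ => u1j s p.1 z.1.1 z.2) 0 :=
    diff_u1j (by fun_prop) (by fun_prop) s p.1
  have ha : DifferentiableAt ℂ (fun z : J2 ℂ × T3 ℂ => o.a p (u1j s p.1 z.1.1 z.2)) 0 :=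
    DifferentiableAt.comp (g := o.a p) 0 (by simpa using h.diffa hp) hu
  have hb : DifferentiableAt ℂ (fun z : J2 ℂ × T3 ℂ => o.b p (u1j s p.1 z.1.1 z.2)) 0 :=
    DifferentiableAt.comp (g := o.b p) 0 (by simpa using h.diffb hp) hu
  have hb' : DifferentiableAt ℂ (fun z : J2 ℂ × T3 ℂ => o.b p z.2) 0 :=
    DifferentiableAt.comp (g := o.b p) 0 (h.diffb hp) (by fun_prop)
  have hc : DifferentiableAt ℂ (fun z : J2 ℂ × T3 ℂ => jcm (c1 s p.1) z.2) 0 :=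
    diff_jcm differentiableAt_snd _
  exact ((diff_pair ha (DifferentiableAt.add (by fun_prop) hc)).add (hb.const_mul _)).sub
    (hb'.const_mul _)

variable (o) in
/-- the linearised equation on the end -/
def LE (s : ℝ) (p : ℝ × ℝ) : T3 ℂ × J2 ℂ →L[ℂ] ℂ :=
  fderiv ℂ (fun z : T3 ℂ × J2 ℂ => o.END s p z.1 z.2) 0

variable (o) in
/-- the linearised equation on the collar -/
def LC (s : ℝ) (p : ℝ × ℝ) : J2 ℂ × T3 ℂ →L[ℂ] ℂ :=
  fderiv ℂ (fun z : J2 ℂ × T3 ℂ => o.COL s p z.1 z.2) 0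

lemma hasDerivAt_line {V : Type*} [NormedAddCommGroup V] [NormedSpace ℂ V] {f : V → ℂ}
    (hf : DifferentiableAt ℂ f 0) (z : V) :
    HasDerivAt (fun t : ℂ => f (t • z)) (fderiv ℂ f 0 z) 0 := by
  simpa [HasLineDerivAt] using hf.hasFDerivAt.hasLineDerivAt z

lemma hasDerivAt_curve {V : Type*} [NormedAddCommGroup V] [NormedSpace ℂ V] {f : V → ℂ}
    (hf : DifferentiableAt ℂ f 0) {γ : ℂ → V} {z : V} (hγ : HasDerivAt γ z 0) (h0 : γ 0 = 0) :
    HasDerivAt (fun t : ℂ => f (γ t)) (fderiv ℂ f 0 z) 0 :=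
  hf.hasFDerivAt.comp_hasDerivAt_of_eq 0 hγ h0.symm

lemma Good.hasDerivAt_E (h : o.Good s') (hp : s' < p.1) (j : J2 ℂ) :
    HasDerivAt (fun t : ℂ => o.E p (t • j)) (o.L p j) 0 := hasDerivAt_line (h.diffE hp) j

lemma Good.hasDerivAt_END (h : o.Good s') (hp : s' < p.1) (s : ℝ) (a : T3 ℂ) (b : J2 ℂ) :
    HasDerivAt (fun t : ℂ => o.END s p (t • a) (t • b)) (o.LE s p (a, b)) 0 :=
  hasDerivAt_line (h.diffEND hp s) (a, b)

lemma Good.hasDerivAt_COL (h : o.Good s') (hp : s' < p.1) (s : ℝ) (a : J2 ℂ) (b : T3 ℂ) :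
    HasDerivAt (fun t : ℂ => o.COL s p (t • a) (t • b)) (o.LC s p (a, b)) 0 :=
  hasDerivAt_line (h.diffCOL hp s) (a, b)

/-- the derivative of the equation on the end along any curve of jets -/
lemma Good.hasDerivAt_END_curve (h : o.Good s') (hp : s' < p.1) (s : ℝ) {a : ℂ → T3 ℂ}
    {b : ℂ → J2 ℂ} {a' : T3 ℂ} {b' : J2 ℂ} (ha : HasDerivAt a a' 0) (hb : HasDerivAt b b' 0)
    (ha0 : a 0 = 0) (hb0 : b 0 = 0) :
    HasDerivAt (fun t : ℂ => o.END s p (a t) (b t)) (o.LE s p (a', b')) 0 := by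
  have h1 : HasDerivAt (fun t => (a t, b t)) (a', b') 0 := ha.prodMk hb
  have h2 := hasDerivAt_curve (h.diffEND hp s) h1 (Prod.ext ha0 hb0)
  simpa only [LE] using h2

/-- the derivative of the equation on the collar along any curve of jets -/
lemma Good.hasDerivAt_COL_curve (h : o.Good s') (hp : s' < p.1) (s : ℝ) {a : ℂ → J2 ℂ}
    {b : ℂ → T3 ℂ} {a' : J2 ℂ} {b' : T3 ℂ} (ha : HasDerivAt a a' 0) (hb : HasDerivAt b b' 0)
    (ha0 : a 0 = 0) (hb0 : b 0 = 0) :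
    HasDerivAt (fun t : ℂ => o.COL s p (a t) (b t)) (o.LC s p (a', b')) 0 := by
  have h1 : HasDerivAt (fun t => (a t, b t)) (a', b') 0 := ha.prodMk hb
  have h2 := hasDerivAt_curve (h.diffCOL hp s) h1 (Prod.ext ha0 hb0)
  simpa only [LC] using h2

/-- the linearised form of `glue_eq` -/
lemma Good.L_glue (h : o.Good s') (hp : s' < p.1) (s : ℝ) (jv jμ : J2 ℂ) :
    o.L p (glueJ s p.1 jv jμ) =
      (c2 s p.1).1 * o.LC s p (jv, jμ.1) + (c1 s p.1).1 * o.LE s p (jv.1, jμ) := by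
  refine (h.hasDerivAt_E hp (glueJ s p.1 jv jμ)).unique ?_
  have h1 := ((h.hasDerivAt_COL hp s jv jμ.1).const_mul (c2 s p.1).1).add
    ((h.hasDerivAt_END hp s jv.1 jμ).const_mul (c1 s p.1).1)
  refine h1.congr_of_eventuallyEq (Eventually.of_forall fun t => ?_)
  show o.E p (t • glueJ s p.1 jv jμ) = _
  rw [← glueJ_smul, o.glue_eq]
  rfl

end EndOp

section LinEnd
variable {o : EndOp} {s : ℝ} {jv jv' : ℝ × ℝ → T3 ℂ} {μ μ' : ℝ × ℝ → ℂ}

lemma LinEnd.le_eq (ho : o.Good s) (h : LinEnd o s jv μ) {p : ℝ × ℝ} (hp : s < p.1) :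
    o.LE s p (jv p, pj μ p) = 0 := (ho.hasDerivAt_END hp s _ _).unique (h.eq p hp)

lemma LinEnd.of_le (ho : o.Good s) (h1 : Per μ) (h2 : ContinuousOn μ (Ici s ×ˢ univ))
    (h3 : ∀ p : ℝ × ℝ, s < p.1 → ContDiffAt ℝ 2 μ p)
    (h4 : ∀ p : ℝ × ℝ, s < p.1 → o.LE s p (jv p, pj μ p) = 0) : LinEnd o s jv μ :=
  ⟨h1, h2, h3, fun p hp => by
    have := ho.hasDerivAt_END hp s (jv p) (pj μ p)
    rwa [h4 p hp] at this⟩

lemma LinEnd.zero (ho : o.Good s) : LinEnd o s 0 fun _ => 0 :=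
  LinEnd.of_le ho (fun _ _ => rfl) continuousOn_const (fun _ _ => contDiffAt_const) fun p hp => by
    have : pj (fun _ : ℝ × ℝ => (0 : ℂ)) p = 0 := cj_zero
    rw [this]
    exact map_zero _

lemma LinEnd.add (ho : o.Good s) (h : LinEnd o s jv μ) (h' : LinEnd o s jv' μ') :
    LinEnd o s (fun p => jv p + jv' p) fun p => μ p + μ' p := by
  refine LinEnd.of_le ho (fun w θ => by simp only [h.per w θ, h'.per w θ]) (h.cont.add h'.cont)
    (fun p hp => (h.cd p hp).add (h'.cd p hp)) fun p hp => ?_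
  have h1 : pj (fun p => μ p + μ' p) p = pj μ p + pj μ' p := cj_add (h.cd p hp) (h'.cd p hp)
  have h2 := map_add (o.LE s p) (jv p, pj μ p) (jv' p, pj μ' p)
  rw [h.le_eq ho hp, h'.le_eq ho hp, add_zero] at h2
  rw [h1]
  exact h2

lemma LinEnd.smul (ho : o.Good s) (h : LinEnd o s jv μ) (t : ℂ) :
    LinEnd o s (fun p => t • jv p) fun p => t * μ p := by
  refine LinEnd.of_le ho (fun w θ => by simp only [h.per w θ]) (continuousOn_const.mul h.cont)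
    (fun p hp => contDiffAt_const.mul (h.cd p hp)) fun p hp => ?_
  have h1 : pj (fun p => t * μ p) p = t • pj μ p := cj_csmul t (h.cd p hp)
  have h2 := map_smul (o.LE s p) t (jv p, pj μ p)
  rw [h.le_eq ho hp, smul_zero] at h2
  rw [h1]
  exact h2

lemma LinEnd.neg (ho : o.Good s) (h : LinEnd o s jv μ) :
    LinEnd o s (fun p => -jv p) fun p => -μ p := by
  simpa using h.smul ho (-1)

lemma LinEnd.sub (ho : o.Good s) (h : LinEnd o s jv μ) (h' : LinEnd o s jv' μ') :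
    LinEnd o s (fun p => jv p - jv' p) fun p => μ p - μ' p := by
  simpa [sub_eq_add_neg] using h.add ho (h'.neg ho)

lemma ev_gt {s : ℝ} {p : ℝ × ℝ} (hp : s < p.1) : ∀ᶠ q : ℝ × ℝ in 𝓝 p, s < q.1 :=
  continuous_fst.continuousAt.eventually (eventually_gt_nhds hp)

/-- the linearised equation sees `jv` only on `(s, s + 6)` and `μ` only on `[s, ∞)` -/
lemma LinEnd.congr (h : LinEnd o s jv μ)
    (h1 : ∀ p : ℝ × ℝ, s < p.1 → p.1 < s + 6 → jv' p = jv p) (h2 : Per μ')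
    (h3 : ∀ p : ℝ × ℝ, s ≤ p.1 → μ' p = μ p) : LinEnd o s jv' μ' := by
  have h4 : ∀ p : ℝ × ℝ, s < p.1 → μ' =ᶠ[𝓝 p] μ := fun p hp =>
    (ev_gt hp).mono fun q hq => h3 q hq.le
  refine ⟨h2, h.cont.congr fun p hp => h3 p hp.1,
    fun p hp => (h.cd p hp).congr_of_eventuallyEq (h4 p hp), fun p hp => ?_⟩
  have h5 : pj μ' p = pj μ p := cj_congr (h4 p hp)
  rw [h5]
  rcases lt_or_ge p.1 (s + 6) with h6 | h6
  · rw [h1 p hp h6]; exact h.eq p hp
  · have := h.eq p hp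
    simp only [o.END_hi h6] at this ⊢
    exact this

end LinEnd

/-! ### the derivative of the base family -/

namespace CoreOp

variable {σ M β ν : Type} [TopologicalSpace M] [ChartedSpace E2 M] [Fintype β] [Fintype σ]
  [Fintype ν] {𝒞 : Cov E2 M} {c : CoreOp σ β M} {s δ r : ℝ} {bd : σ → ℝ → (ν → ℂ) →L[ℂ] ℂ}
  {O : VC 𝒞 → σ → ℝ × ℝ → ℂ} {m : VC 𝒞 → ν → ℂ}

lemma BaseFam.pj_zero (h : c.BaseFam s δ r bd O m) (j : σ) {p : ℝ × ℝ} (hp : s < p.1) :
    pj (O 0 j) p = 0 :=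
  (cj_congr ((ev_gt hp).mono fun q hq => h.zero j q hq.le)).trans cj_zero

lemma BaseFam.jet (h : c.BaseFam s δ r bd O m) (v : VC 𝒞) (j : σ) {p : ℝ × ℝ} (hp : s < p.1) :
    ContDiffAt ℝ 2 (fun q => fderiv ℂ (fun u => O u j q) 0 v) p ∧
      pj (fun q => fderiv ℂ (fun u => O u j q) 0 v) p = fderiv ℂ (fun u => pj (O u j) p) 0 v := by
  refine jetLim (f := fun u => O u j) (Ω := {p : ℝ × ℝ | s < p.1}) h.pos
    (isOpen_lt continuous_const continuous_fst) (fun u hu q hq => (h.sol u hu j).cd q hq)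
    (fun q hq => h.hol2 j q hq) (fun q hq => ?_) v hp
  obtain ⟨C, hC⟩ := h.bd2 (q.1 + 1)
  refine ⟨C, ?_⟩
  filter_upwards [ev_gt hq, continuous_fst.continuousAt.eventually
    (eventually_lt_nhds (lt_add_one q.1))] with x h1 h2 u hu using hC u hu j x ⟨h1, h2⟩

lemma BaseFam.per_fderiv (h : c.BaseFam s δ r bd O m) (v : VC 𝒞) (j : σ) :
    Per fun q => fderiv ℂ (fun u => O u j q) 0 v := fun w θ => by
  have : (fun u => O u j (w, θ + 2 * Real.pi)) =ᶠ[𝓝 0] fun u => O u j (w, θ) := by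
    filter_upwards [ball_mem_nhds (0 : VC 𝒞) h.pos] with u hu using (h.sol u hu j).per w θ
  simp only [this.fderiv_eq]

lemma BaseFam.linEnd_fderiv (hc : c.Good s) (h : c.BaseFam s δ r bd O m) (v : VC 𝒞) (j : σ) :
    LinEnd (c.op j) s (c.jv v j) fun q => fderiv ℂ (fun u => O u j q) 0 v := by
  refine LinEnd.of_le (hc.ops j) (h.per_fderiv v j)
    (continuousOn_fderiv_fam (f := fun u => O u j) h.pos (fun u hu => h.cont u hu j)
      (fun q hq => h.hol0 j q hq.1) (fun q hq u hu => h.bd0 u hu j q hq.1) v)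
    (fun p hp => (h.jet v j hp).1) fun p hp => ?_
  rw [(h.jet v j hp).2]
  have h1 : HasDerivAt (fun t : ℂ => t • c.jv v j p) (c.jv v j p) 0 := by
    simpa using (hasDerivAt_id (0 : ℂ)).smul_const (c.jv v j p)
  have h2 : HasDerivAt (fun t : ℂ => pj (O (t • v) j) p) (fderiv ℂ (fun u => pj (O u j) p) 0 v)
      0 := by
    simpa [HasLineDerivAt] using
      ((h.hol2 j p hp).differentiableAt (ball_mem_nhds _ h.pos)).hasFDerivAt.hasLineDerivAt v
  have h3 := (hc.ops j).hasDerivAt_END_curve hp s h1 h2 (zero_smul _ _)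
    (by rw [zero_smul]; exact h.pj_zero j hp)
  refine (h3.congr_of_eventuallyEq ?_).unique (hasDerivAt_const (0 : ℂ) (0 : ℂ))
  have h4 : ContinuousAt (fun t : ℂ => t • v) 0 := by fun_prop
  filter_upwards [h4.eventually (isOpen_ball.mem_nhds (by simpa using h.pos :
    (0 : ℂ) • v ∈ ball (0 : VC 𝒞) δ))] with t ht
  rw [← c.jv_smul t v j (hc.lev.trans hp)]
  exact ((h.sol _ ht j).eq p hp).symm

lemma BaseFam.norm_fderiv_le (h : c.BaseFam s δ r bd O m) (v : VC 𝒞) (j : σ) {p : ℝ × ℝ}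
    (hp : s ≤ p.1) : ‖fderiv ℂ (fun u => O u j p) 0 v‖ ≤ r / δ * ‖v‖ :=
  (ContinuousLinearMap.le_opNorm _ _).trans (mul_le_mul_of_nonneg_right
    (norm_fderiv_le_of_ball h.pos (h.hol0 j p hp) fun u hu => h.bd0 u hu j p hp) (norm_nonneg _))

lemma BaseFam.norm_fderiv_m_le (h : c.BaseFam s δ r bd O m) (v : VC 𝒞) :
    ‖fderiv ℂ m 0 v‖ ≤ r / δ * ‖v‖ :=
  (ContinuousLinearMap.le_opNorm _ _).trans (mul_le_mul_of_nonneg_right
    (norm_fderiv_le_of_ball h.pos h.holm h.bdm) (norm_nonneg _))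

lemma BaseFam.fderiv_bdry (h : c.BaseFam s δ r bd O m) (v : VC 𝒞) (j : σ) (θ : ℝ) :
    fderiv ℂ (fun u => O u j (s, θ)) 0 v = bd j θ (fderiv ℂ m 0 v) := by
  have h1 : (fun u => O u j (s, θ)) =ᶠ[𝓝 0] fun u => bd j θ (m u) := by
    filter_upwards [ball_mem_nhds (0 : VC 𝒞) h.pos] with u hu using h.bdry u hu j θ
  have h2 : HasFDerivAt (fun u => bd j θ (m u)) _ 0 := (bd j θ).hasFDerivAt.comp 0
    (h.holm.differentiableAt (ball_mem_nhds _ h.pos)).hasFDerivAt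
  rw [h1.fderiv_eq, h2.fderiv]
  rfl

lemma im_smul_ofR (t : ℝ) (u : VR 𝒞) : ((t : ℂ) • (Cx.ofR u : VC 𝒞)).im = 0 := by
  rw [Cx.im_smul]
  simp

lemma BaseFam.fderiv_ofR (h : c.BaseFam s δ r bd O m) (u : VR 𝒞) (j : σ) {p : ℝ × ℝ}
    (hp : s ≤ p.1) : fderiv ℂ (fun u => O u j p) 0 (Cx.ofR u) = (dO O u j p : ℝ) := by
  have := im_fderiv_eq_zero h.pos (h.hol0 j p hp) (h := Cx.ofR u)
    fun t ht => (h.real _ ht (im_smul_ofR t u)).1 j p hp
  exact Complex.ext rfl this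

lemma BaseFam.im_fderiv_m (h : c.BaseFam s δ r bd O m) (u : VR 𝒞) (i : ν) :
    (fderiv ℂ m 0 (Cx.ofR u) i).im = 0 := by
  have h1 := (h.holm.differentiableAt (ball_mem_nhds _ h.pos)).hasFDerivAt
  have h2 : HasFDerivAt (fun v => m v i) _ 0 := hasFDerivAt_pi'.1 h1 i
  have := im_fderiv_eq_zero (f := fun v => m v i) h.pos (differentiableOn_pi.1 h.holm i)
    (h := Cx.ofR u) fun t ht => (h.real _ ht (im_smul_ofR t u)).2 i
  rw [h2.fderiv] at this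
  exact this

lemma BaseFam.per_dO (h : c.BaseFam s δ r bd O m) (u : VR 𝒞) (j : σ) : Per (dO O u j) :=
  fun w θ => congrArg Complex.re (h.per_fderiv (Cx.ofR u) j w θ)

lemma BaseFam.linEnd_dO (hc : c.Good s) (h : c.BaseFam s δ r bd O m) (u : VR 𝒞) (j : σ) :
    LinEnd (c.op j) s (c.jv (Cx.ofR u) j) fun p => (dO O u j p : ℂ) :=
  (h.linEnd_fderiv hc (Cx.ofR u) j).congr (fun _ _ _ => rfl)
    (fun w θ => by simp only [h.per_dO u j w θ]) fun p hp => (h.fderiv_ofR u j hp).symm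

lemma BaseFam.abs_dO_le (h : c.BaseFam s δ r bd O m) (u : VR 𝒞) (j : σ) {p : ℝ × ℝ}
    (hp : s ≤ p.1) : |dO O u j p| ≤ r / δ * ‖u‖ := by
  have := h.norm_fderiv_le (Cx.ofR u) j hp
  rwa [h.fderiv_ofR u j hp, Complex.norm_real, Cx.norm_ofR] at this

lemma BaseFam.pj_dO (h : c.BaseFam s δ r bd O m) (u : VR 𝒞) (j : σ) {p : ℝ × ℝ} (hp : s < p.1) :
    pj (fun q => (dO O u j q : ℂ)) p = fderiv ℂ (fun u => pj (O u j) p) 0 (Cx.ofR u) :=
  (cj_congr ((ev_gt hp).mono fun q hq => (h.fderiv_ofR u j hq.le).symm)).trans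
    (h.jet (Cx.ofR u) j hp).2

/-- **The derivative of the base family solves the linearised equation on the ends.** -/
theorem BaseFam.linEnd (hc : c.Good s) (h : c.BaseFam s δ r bd O m) (v : VC 𝒞) (j : σ) :
    LinEnd (c.op j) s (c.jv v j) (fun p => fderiv ℂ (fun u => O u j p) 0 v) ∧
    (∀ p : ℝ × ℝ, s < p.1 → pj (fun q => fderiv ℂ (fun u => O u j q) 0 v) p =
      fderiv ℂ (fun u => pj (O u j) p) 0 v) ∧
    (∀ p : ℝ × ℝ, s ≤ p.1 → ‖fderiv ℂ (fun u => O u j p) 0 v‖ ≤ r / δ * ‖v‖) ∧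
    (∀ θ, fderiv ℂ (fun u => O u j (s, θ)) 0 v = bd j θ (fderiv ℂ m 0 v)) ∧
    ∀ u, v = Cx.ofR u → (∀ p : ℝ × ℝ, s ≤ p.1 →
      fderiv ℂ (fun u => O u j p) 0 v = (dO O u j p : ℝ)) ∧ ∀ i, (fderiv ℂ m 0 v i).im = 0 := by
  refine ⟨h.linEnd_fderiv hc v j, fun p hp => (h.jet v j hp).2,
    fun p hp => h.norm_fderiv_le v j hp, h.fderiv_bdry v j, ?_⟩
  rintro u rfl
  exact ⟨fun p hp => h.fderiv_ofR u j hp, h.im_fderiv_m u⟩

end CoreOp

end Vale.Agent.P218CO
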