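import Vale.Agent.P218CO.Ends
import Vale.Agent.P218CO.Holo
import Mathlib.Analysis.Calculus.UniformLimitsDeriv

/-! # Uniform limits of two-jets and derivatives of holomorphic families of functions -/

open Set Filter Metric Topology

noncomputable section

set_option linter.unusedSectionVars false
set_option linter.unusedVariables false

namespace Vale.Agent.P218CJ

open Vale.Agent.P218VA Vale.Agent.P218CO Vale.Agent.P281.MF

section lim
variable {Z : Type*} [NormedAddCommGroup Z] [NormedSpace ℝ Z]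

/-- the linear map on the plane with the given values on the basis -/
def cl (a : Z × Z) : ℝ × ℝ →L[ℝ] Z :=
  (ContinuousLinearMap.fst ℝ ℝ ℝ).smulRight a.1 + (ContinuousLinearMap.snd ℝ ℝ ℝ).smulRight a.2

lemma cl_apply (a : Z × Z) (v : ℝ × ℝ) : cl a v = v.1 • a.1 + v.2 • a.2 := rfl

/-- `cl` as a continuous linear map -/
def clL : Z × Z →L[ℝ] (ℝ × ℝ →L[ℝ] Z) :=
  (ContinuousLinearMap.smulRightL ℝ (ℝ × ℝ) Z (ContinuousLinearMap.fst ℝ ℝ ℝ)).comp
      (ContinuousLinearMap.fst ℝ Z Z) +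
    (ContinuousLinearMap.smulRightL ℝ (ℝ × ℝ) Z (ContinuousLinearMap.snd ℝ ℝ ℝ)).comp
      (ContinuousLinearMap.snd ℝ Z Z)

lemma clL_apply (a : Z × Z) : clL a = cl a := rfl

lemma eq_cl (L : ℝ × ℝ →L[ℝ] Z) : L = cl (L (1, 0), L (0, 1)) := by
  refine ContinuousLinearMap.ext fun v => ?_
  rw [cl_apply, ← map_smul, ← map_smul, ← map_add]
  congr 1
  simp

/-- uniform limits of `C¹` functions -/
lemma limC1 {U : Set (ℝ × ℝ)} (hU : IsOpen U) {F : ℕ → ℝ × ℝ → Z} {g : ℝ × ℝ → Z}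
    {a : ℝ × ℝ → Z × Z} (hF : ∀ n, ∀ q ∈ U, DifferentiableAt ℝ (F n) q)
    (hg : ∀ q ∈ U, Tendsto (fun n => F n q) atTop (𝓝 (g q)))
    (ha : TendstoUniformlyOn (fun n q => (pd (F n) (1, 0) q, pd (F n) (0, 1) q)) a atTop U)
    {q : ℝ × ℝ} (hq : q ∈ U) : HasFDerivAt g (cl (a q)) q := by
  have h1 := (clL (Z := Z)).uniformContinuous.comp_tendstoUniformlyOn ha
  refine hasFDerivAt_of_tendstoUniformlyOn (g' := fun q => cl (a q)) hU h1 (fun n x hx => ?_) hg hq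
  have h2 := (hF n x hx).hasFDerivAt
  rw [eq_cl (fderiv ℝ (F n) x)] at h2
  exact h2

lemma contDiffAt_of_cl {U : Set (ℝ × ℝ)} (hU : IsOpen U) {g : ℝ × ℝ → Z} {a : ℝ × ℝ → Z × Z}
    (h : ∀ q ∈ U, HasFDerivAt g (cl (a q)) q) {n : ℕ} {q : ℝ × ℝ} (hq : q ∈ U)
    (ha : ContDiffAt ℝ n a q) : ContDiffAt ℝ (n + 1 : ℕ) g q :=
  (contDiffAt_succ_iff_hasFDerivAt (𝕜 := ℝ) (n := n) (f := g) (x := q)).2
    ⟨fun q => cl (a q), ⟨U, hU.mem_nhds hq, h⟩, (clL (Z := Z)).contDiff.contDiffAt.comp q ha⟩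

lemma pd_of_cl {g : ℝ × ℝ → Z} {a : Z × Z} {q : ℝ × ℝ} (h : HasFDerivAt g (cl a) q) :
    pd g (1, 0) q = a.1 ∧ pd g (0, 1) q = a.2 := by
  unfold pd
  rw [h.fderiv]
  simp [cl_apply]

/-- **Uniform limits of two-jets are two-jets.** -/
theorem limC2 {U : Set (ℝ × ℝ)} (hU : IsOpen U) {F : ℕ → ℝ × ℝ → Z} {J : ℝ × ℝ → J2 Z}
    (hF : ∀ n, ∀ q ∈ U, ContDiffAt ℝ 2 (F n) q)
    (hJ : TendstoUniformlyOn (fun n => pj (F n)) J atTop U) {q : ℝ × ℝ} (hq : q ∈ U) :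
    ContDiffAt ℝ 2 (fun q => (J q).1.1) q ∧ pj (fun q => (J q).1.1) q = J q := by
  have hc : ContinuousOn J U := hJ.continuousOn (Frequently.of_forall fun n x hx =>
    (contDiffAt_cj (n := 0) (by simpa using hF n x hx)).continuousAt.continuousWithinAt)
  have key : ∀ {W : Type _} [NormedAddCommGroup W] [NormedSpace ℝ W] (L : J2 Z →L[ℝ] W),
      TendstoUniformlyOn (fun n q => L (pj (F n) q)) (fun q => L (J q)) atTop U :=
    fun L => L.uniformContinuous.comp_tendstoUniformlyOn hJ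
  set A := ContinuousLinearMap.fst ℝ (T3 Z) (T3 Z)
  set B := ContinuousLinearMap.snd ℝ (T3 Z) (T3 Z)
  set p1 := ContinuousLinearMap.fst ℝ Z (Z × Z)
  set p2 := ContinuousLinearMap.snd ℝ Z (Z × Z)
  set q1 := ContinuousLinearMap.fst ℝ Z Z
  set q2 := ContinuousLinearMap.snd ℝ Z Z
  have h0 : ∀ x ∈ U, HasFDerivAt (fun q => (J q).1.1) (cl (J x).1.2) x := fun x hx =>
    limC1 hU (fun n y hy => (hF n y hy).differentiableAt (by simp))
      (fun y hy => (key (p1.comp A)).tendsto_at hy) (key (p2.comp A)) hx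
  have h1 : ∀ x ∈ U, HasFDerivAt (fun q => (J q).1.2.1) (cl ((J x).2.1, (J x).2.2.1)) x :=
    fun x hx => limC1 (F := fun n => pd (F n) (1, 0)) (a := fun x => ((J x).2.1, (J x).2.2.1)) hU
      (fun n y hy => differentiableAt_pd (hF n y hy) _)
      (fun y hy => (key (q1.comp (p2.comp A))).tendsto_at hy)
      (key ((p1.comp B).prod (q1.comp (p2.comp B)))) hx
  have h2 : ∀ x ∈ U, HasFDerivAt (fun q => (J q).1.2.2) (cl (J x).2.2) x :=
    fun x hx => limC1 (F := fun n => pd (F n) (0, 1)) (a := fun x => (J x).2.2) hU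
      (fun n y hy => differentiableAt_pd (hF n y hy) _)
      (fun y hy => (key (q2.comp (p2.comp A))).tendsto_at hy)
      ((key (p2.comp B)).congr (Eventually.of_forall fun n y hy => by
        refine Prod.ext ?_ rfl
        exact pd_comm (hF n y hy) _ _)) hx
  have hc0 : ContDiffAt ℝ (0 : ℕ) J q := by
    simpa using contDiffAt_zero.2 ⟨U, hU.mem_nhds hq, hc⟩
  have k1 := contDiffAt_of_cl (a := fun x => ((J x).2.1, (J x).2.2.1)) hU h1 hq
    (hc0.snd.fst.prodMk hc0.snd.snd.fst)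
  have k2 := contDiffAt_of_cl (a := fun x => (J x).2.2) hU h2 hq hc0.snd.snd
  have k0 := contDiffAt_of_cl (a := fun x => (J x).1.2) (n := 1) hU h0 hq (k1.prodMk k2)
  refine ⟨k0, ?_⟩
  have e1 : pd (fun q => (J q).1.1) (1, 0) =ᶠ[𝓝 q] fun q => (J q).1.2.1 := by
    filter_upwards [hU.mem_nhds hq] with x hx using (pd_of_cl (h0 x hx)).1
  have e2 : pd (fun q => (J q).1.1) (0, 1) =ᶠ[𝓝 q] fun q => (J q).1.2.2 := by
    filter_upwards [hU.mem_nhds hq] with x hx using (pd_of_cl (h0 x hx)).2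
  unfold pj cj
  rw [pd_congr e1, pd_congr e1, pd_congr e2, e1.self_of_nhds, e2.self_of_nhds,
    (pd_of_cl (h1 q hq)).1, (pd_of_cl (h1 q hq)).2, (pd_of_cl (h2 q hq)).2]

end lim

section fam
variable {P Z : Type*} [NormedAddCommGroup P] [NormedSpace ℂ P] [NormedAddCommGroup Z]
  [NormedSpace ℂ Z] {X : Type*}

/-- the steps of the difference quotients -/
def dqs (d : ℝ) (h : P) (n : ℕ) : ℝ := d / (‖h‖ + 1) * (1 / 2) ^ n

lemma dqs_pos {d : ℝ} (hd : 0 < d) (h : P) (n : ℕ) : 0 < dqs d h n := by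
  unfold dqs; positivity

lemma norm_dqs {d : ℝ} (hd : 0 < d) (h : P) (n : ℕ) :
    ‖(dqs d h n : ℂ) • h‖ < d * (1 / 2) ^ n := by
  have h0 : (0 : ℝ) < (1 / 2) ^ n := by positivity
  rw [norm_smul, Complex.norm_real, Real.norm_of_nonneg (dqs_pos hd h n).le, dqs]
  have h3 : ‖h‖ / (‖h‖ + 1) < 1 := by rw [div_lt_one (by positivity)]; linarith
  calc d / (‖h‖ + 1) * (1 / 2) ^ n * ‖h‖ = d * (1 / 2) ^ n * (‖h‖ / (‖h‖ + 1)) := by ring
    _ < d * (1 / 2) ^ n * 1 := by gcongr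
    _ = _ := mul_one _

lemma norm_dqs' {d : ℝ} (hd : 0 < d) (h : P) (n : ℕ) : ‖(dqs d h n : ℂ) • h‖ < d := by
  have h1 : ((1 : ℝ) / 2) ^ n ≤ 1 := pow_le_one₀ (by norm_num) (by norm_num)
  exact (norm_dqs hd h n).trans_le (by nlinarith)

lemma dqs_mem {d : ℝ} (hd : 0 < d) (h : P) (n : ℕ) : (dqs d h n : ℂ) • h ∈ ball (0 : P) d :=
  mem_ball_zero_iff.2 (norm_dqs' hd h n)

/-- the difference quotients converge uniformly -/
lemma tendsto_dq {d C : ℝ} (hd : 0 < d) {f : P → X → Z} {S : Set X}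
    (hf : ∀ q ∈ S, DifferentiableOn ℂ (fun v => f v q) (ball 0 d))
    (hC : ∀ q ∈ S, ∀ v ∈ ball (0 : P) d, ‖f v q‖ ≤ C) (h : P) :
    TendstoUniformlyOn (fun n q => (dqs d h n : ℂ)⁻¹ • (f ((dqs d h n : ℂ) • h) q - f 0 q))
      (fun q => fderiv ℂ (fun v => f v q) 0 h) atTop S := by
  rw [Metric.tendstoUniformlyOn_iff]
  intro ε hε
  set K : ℝ := 3 * |C| * ((‖h‖ + 1) / d) with hK
  have h1 : Tendsto (fun n : ℕ => K * (1 / 2) ^ n) atTop (𝓝 0) := by
    simpa using (tendsto_pow_atTop_nhds_zero_of_lt_one (by norm_num : (0 : ℝ) ≤ 1 / 2)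
      (by norm_num)).const_mul K
  filter_upwards [h1.eventually (gt_mem_nhds hε)] with n hn q hq
  refine lt_of_le_of_lt ?_ hn
  have hs := dqs_pos hd h n
  have hne : (dqs d h n : ℂ) ≠ 0 := by exact_mod_cast hs.ne'
  have h2 := taylor_two (hf q hq) (fun y hy => (hC q hq y hy).trans (le_abs_self C))
    (norm_dqs' hd h n)
  rw [zero_add] at h2
  have h3 : (dqs d h n : ℂ)⁻¹ • (f ((dqs d h n : ℂ) • h) q - f 0 q) -
      fderiv ℂ (fun v => f v q) 0 h = (dqs d h n : ℂ)⁻¹ • (f ((dqs d h n : ℂ) • h) q - f 0 q -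
        fderiv ℂ (fun v => f v q) 0 ((dqs d h n : ℂ) • h)) := by
    simp only [map_smul, smul_sub, smul_smul, inv_mul_cancel₀ hne, one_smul]
  rw [dist_comm, dist_eq_norm, h3, norm_smul, norm_inv, Complex.norm_real,
    Real.norm_of_nonneg hs.le]
  have h4 : (‖(dqs d h n : ℂ) • h‖ / d) ^ 2 ≤ ((1 / 2) ^ n) ^ 2 := by
    gcongr
    rw [div_le_iff₀ hd]; linarith [norm_dqs hd h n]
  calc (dqs d h n)⁻¹ * _ ≤ (dqs d h n)⁻¹ * (3 * |C| * ((1 / 2) ^ n) ^ 2) := by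
        refine mul_le_mul_of_nonneg_left (h2.trans (by gcongr)) (inv_pos.2 hs).le
    _ = K * (1 / 2) ^ n := by rw [dqs, hK]; field_simp

/-- the derivative of a bounded holomorphic family of continuous functions is continuous -/
theorem continuousOn_fderiv_fam [TopologicalSpace X] {d C : ℝ} (hd : 0 < d) {f : P → X → Z}
    {S : Set X} (hc : ∀ v ∈ ball (0 : P) d, ContinuousOn (f v) S)
    (hf : ∀ q ∈ S, DifferentiableOn ℂ (fun v => f v q) (ball 0 d))
    (hC : ∀ q ∈ S, ∀ v ∈ ball (0 : P) d, ‖f v q‖ ≤ C) (h : P) :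
    ContinuousOn (fun q => fderiv ℂ (fun v => f v q) 0 h) S :=
  (tendsto_dq hd hf hC h).continuousOn (Frequently.of_forall fun n =>
    ((hc _ (dqs_mem hd h n)).sub (hc 0 (mem_ball_self hd))).const_smul _)

/-- **The jet of the derivative of a family is the derivative of the jets.** -/
theorem jetLim {d : ℝ} (hd : 0 < d) {Ω : Set (ℝ × ℝ)} (hΩ : IsOpen Ω) {f : P → ℝ × ℝ → Z}
    (hc : ∀ v ∈ ball (0 : P) d, ∀ p ∈ Ω, ContDiffAt ℝ 2 (f v) p)
    (hf : ∀ p ∈ Ω, DifferentiableOn ℂ (fun v => pj (f v) p) (ball 0 d))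
    (hC : ∀ p ∈ Ω, ∃ C, ∀ᶠ q in 𝓝 p, ∀ v ∈ ball (0 : P) d, ‖pj (f v) q‖ ≤ C) (h : P)
    {p : ℝ × ℝ} (hp : p ∈ Ω) :
    ContDiffAt ℝ 2 (fun q => fderiv ℂ (fun v => f v q) 0 h) p ∧
      pj (fun q => fderiv ℂ (fun v => f v q) 0 h) p = fderiv ℂ (fun v => pj (f v) p) 0 h := by
  obtain ⟨C, hC⟩ := hC p hp
  obtain ⟨U, hU, hUo, hpU⟩ := _root_.eventually_nhds_iff.1 (hC.and (hΩ.mem_nhds hp))
  have h1 := tendsto_dq (f := fun v q => pj (f v) q) hd (fun q hq => hf q (hU q hq).2)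
    (fun q hq => (hU q hq).1) h
  have h0 := mem_ball_self (x := (0 : P)) hd
  have h2 := limC2 (F := fun n q => (dqs d h n : ℂ)⁻¹ • (f ((dqs d h n : ℂ) • h) q - f 0 q)) hUo
    (fun n q hq => ((hc _ (dqs_mem hd h n) q (hU q hq).2).sub (hc 0 h0 q (hU q hq).2)).const_smul _)
    (h1.congr (Eventually.of_forall fun n q hq => by
      have a := hc _ (dqs_mem hd h n) q (hU q hq).2
      have b := hc 0 h0 q (hU q hq).2
      have c := cj_csmul (d1 := ((1, 0) : ℝ × ℝ)) (d2 := (0, 1)) (-1) b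
      have e := cj_add (d1 := ((1, 0) : ℝ × ℝ)) (d2 := (0, 1)) a (b.const_smul (-1 : ℂ))
      rw [c] at e
      simp only [neg_smul, one_smul, ← sub_eq_add_neg] at e
      show _ = pj _ q
      unfold pj
      rw [cj_csmul _ (a.sub b), e])) hpU
  have h3 : (fun q => fderiv ℂ (fun v => f v q) 0 h) =ᶠ[𝓝 p]
      fun q => (fderiv ℂ (fun v => pj (f v) q) 0 h).1.1 := by
    filter_upwards [hΩ.mem_nhds hp] with q hq
    have a := ((hf q hq).differentiableAt (ball_mem_nhds _ hd)).hasFDerivAt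
    have b : HasFDerivAt (fun v => f v q) _ 0 := a.fst.fst
    rw [b.fderiv]
    rfl
  exact ⟨h2.1.congr_of_eventuallyEq h3, (cj_congr h3).trans h2.2⟩

/-- the derivative in a real direction of a function which is real on real points -/
lemma im_fderiv_eq_zero {d : ℝ} (hd : 0 < d) {f : P → ℂ} (hf : DifferentiableOn ℂ f (ball 0 d))
    {h : P} (hr : ∀ t : ℝ, (t : ℂ) • h ∈ ball (0 : P) d → (f ((t : ℂ) • h)).im = 0) :
    (fderiv ℂ f 0 h).im = 0 := by
  have h0 : (f 0).im = 0 := by simpa using hr 0 (by simpa using hd)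
  have h1 := ((hf.differentiableAt (ball_mem_nhds _ hd)).hasFDerivAt.hasLineDerivAt h)
  have h2 : HasDerivAt (fun t : ℂ => f (t • h)) (fderiv ℂ f 0 h) ((0 : ℝ) : ℂ) := by
    simpa [HasLineDerivAt] using h1
  have h3 := Complex.imCLM.hasFDerivAt.comp_hasDerivAt (0 : ℝ) h2.comp_ofReal
  have h4 : (⇑Complex.imCLM ∘ fun y : ℝ => f ((y : ℂ) • h)) =ᶠ[𝓝 0] fun _ => 0 := by
    have h5 : ContinuousAt (fun t : ℝ => (t : ℂ) • h) 0 := by fun_prop
    have h6 : ∀ᶠ t : ℝ in 𝓝 0, (t : ℂ) • h ∈ ball (0 : P) d :=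
      h5.eventually (isOpen_ball.mem_nhds (by simpa using hd))
    filter_upwards [h6] with t ht using hr t ht
  exact (h3.congr_of_eventuallyEq h4.symm).unique (hasDerivAt_const _ _)

end fam

end Vale.Agent.P218CJ
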